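import Vale.Agent.P281.H740.TW.EasyFin
import Vale.Agent.P281.H303.UF.Fin

/-!
# P281, Towers v3 (helper64): easy addition, the bound only for the fibres themselves
-/

open Set Filter Vale.Agent.P281
open Vale.Agent.P281.H511.Surf (IsFibration IsFibre)
open Vale.Agent.P281.H64.Thin (IsThinSet)
open Vale.Agent.P281.H64 (Cm IsProperFibration)
open Vale.Agent.P281.H64.Gen (CritStmt)
open Vale.Agent.P281.H713
open scoped Topology ContDiff Manifold

set_option linter.all false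

noncomputable section

namespace Vale.Agent.P281.H740

def EasyIStmt : Prop :=
  ∀ (q c d : ℕ) (X Z Y : Type) [TopologicalSpace X] [ChartedSpace (Cm (q + c + d)) X]
    [TopologicalSpace Z] [ChartedSpace (Cm (q + c)) Z] [TopologicalSpace Y] [ChartedSpace (Cm q) Y]
    (g : X → Z) (h : Z → Y) (Δ : Set X → ℝ), IsFibration (Cm (q + c + d)) (Cm (q + c)) g Δ →
    IsFibration (Cm (q + c)) (Cm q) h (fun _ => 0) → ∀ (a : WithBot ℕ∞) (H : ℕ → Set Z),
    (∀ k, IsThinSet (Cm (q + c)) (H k)) → (∀ z, (∀ k, z ∉ H k) → ∀ (G : Type)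
      [TopologicalSpace G] [T2Space G] [ChartedSpace (Cm d) G] (i : G → X),
      H511.Surf.IsFibre (Cm (q + c + d)) (Cm d) g z i → Function.Injective i →
      TZ.S.kodR (Cm (q + c + d)) (Cm d) i Δ ≤ a) →
    ∃ H' : ℕ → Set Y, (∀ k, IsThinSet (Cm q) (H' k)) ∧ ∀ y, (∀ k, y ∉ H' k) →
      ∀ (F : Type) [TopologicalSpace F] [T2Space F] [ChartedSpace (Cm (c + d)) F] (i : F → X),
        H511.Surf.IsFibre (Cm (q + c + d)) (Cm (c + d)) (fun x => h (g x)) y i → Function.Injective i →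
        TZ.S.kodR (Cm (q + c + d)) (Cm (c + d)) i Δ ≤ a + ((c : ℕ∞) : WithBot ℕ∞)

/-- **W2**: easy addition. -/
theorem easyI_of (crit : CritStmt) (restr : RestrStmt) : EasyIStmt := by
  intro q c d X Z Y _ _ _ _ _ _ g h Δ hg hh a H hH hG
  have : T2Space X := hg.hausdorff.1
  have : T2Space Z := hg.hausdorff.2
  have : T2Space Y := hh.hausdorff.2
  have : CompactSpace X := hg.compact
  have : CompactSpace Z := hh.compact
  have : ConnectedSpace X := hg.connected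
  have : ConnectedSpace Z := hh.connected
  have : IsManifold 𝓘(ℂ, Cm (q + c + d)) ω X := hg.manifold.1
  have : IsManifold 𝓘(ℂ, Cm (q + c)) ω Z := hg.manifold.2
  have : IsManifold 𝓘(ℂ, Cm q) ω Y := hh.manifold.2
  have hgs : Function.Surjective g := fun z => (hg.fibres z).nonempty
  have hf := comp_fib' hg hh
  obtain ⟨Sg, hSg, hPg⟩ := crit (q + c + d) (q + c) X Z g hg.hol hg.fibres
  obtain ⟨Sf, hSf, hPf⟩ := crit (q + c + d) q X Y (fun x => h (g x)) hf.hol hf.fibres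
  obtain ⟨Kg, hKg, hsubg⟩ := hSg.2
  obtain ⟨Kf, hKf, hsubf⟩ := hSf.2
  have hPg' := hPg Sg subset_rfl hSg.1
  have hPf' := hPf Sf subset_rfl hSf.1
  -- a point where `g` is submersive
  have hex : ∃ x, Function.Surjective (mfderiv 𝓘(ℂ, Cm (q + c + d)) 𝓘(ℂ, Cm (q + c)) g x) := by
    obtain ⟨z, hz⟩ := exists_notMem_thin hKg
    obtain ⟨x, hx⟩ := hgs z
    refine ⟨x, hPg'.submersive x fun h1 => ?_⟩
    rw [hx] at h1
    obtain ⟨k, hk⟩ := mem_iUnion.1 (hsubg h1)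
    exact hz k hk
  obtain ⟨H', hH', hgen⟩ := genpos_n (Nat.add_assoc q c d) (fun x => h (g x)) hf.hol Sf hPf'
    (fun k => g ⁻¹' (H k) ∪ g ⁻¹' (Kg k)) fun k =>
      H64.Thin.IsThinSet.union (thin_pre hg.hol hex (hH k)) (thin_pre hg.hol hex (hKg k))
  refine ⟨fun k => H' k ∪ Kf k, fun k => H64.Thin.IsThinSet.union (hH' k) (hKf k),
    fun y hy F _ _ _ i hi hinj => ?_⟩
  have hy1 : ∀ k, y ∉ H' k := fun k h1 => hy k (Or.inl h1)
  have hyS : y ∉ Sf := by
    intro h1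
    obtain ⟨k, hk⟩ := mem_iUnion.1 (hsubf h1)
    exact hy k (Or.inr hk)
  have : CompactSpace F := hi.compact
  have : ConnectedSpace F := hi.connected
  have : Nonempty F := hi.connected.toNonempty
  have : IsManifold 𝓘(ℂ, Cm (c + d)) ω F := hi.manifold
  have hn : Module.finrank ℂ (Cm (q + c + d)) =
      Module.finrank ℂ (Cm q) + Module.finrank ℂ (Cm (c + d)) := by
    simp only [Module.finrank_fin_fun]
    omega
  have hfsub : ∀ x, h (g x) = y → Function.Surjective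
      (mfderiv 𝓘(ℂ, Cm (q + c + d)) 𝓘(ℂ, Cm q) (fun x => h (g x)) x) := fun x hx =>
    hPf'.submersive x (by rw [hx]; exact hyS)
  have hsur : ∀ x, h (g x) = y → ∃ t, i t = x := fun x hx =>
    surj_fib hn hf.hol hi.hol hfsub hi.immersion hi.fibre (hf.fibres y).isPreconnected hx
  unfold TZ.S.kodR J.kod
  refine iSup₂_le fun N hN => ?_
  obtain ⟨m, k, σ, t₁, hm, hk, hσ, h1, h2, h3⟩ := hN
  have hopen := kod_open (N := N) hi.hol (Δ := Δ) hg.snc.1 hk hσ h1 h2 h3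
  obtain ⟨ρ, hρ, hρ0, hρf⟩ := exists_retr hn hf.hol hi.hol (hfsub _ (hi.fibre t₁))
    (hi.immersion t₁) hi.fibre
  rw [← hρ0] at hopen
  have hU := (hρ.continuousAt.eventually hopen).and hρf
  obtain ⟨U, hU1, hU2, hU3⟩ := eventually_nhds_iff.1 hU
  obtain ⟨x, hxU, hxy, hxk⟩ := hgen y hyS hy1 U hU2 (i t₁) hU3 (hi.fibre t₁)
  obtain ⟨⟨b1, b2, b3⟩, b4⟩ := hU1 x hxU
  have hix : i (ρ x) = x := b4 hxy
  -- the fibre of `g`
  have hzS : g x ∉ Sg := by
    intro h1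
    obtain ⟨k, hk⟩ := mem_iUnion.1 (hsubg h1)
    exact hxk k (Or.inr hk)
  have hzH : ∀ k, g x ∉ H k := fun k h1 => hxk k (Or.inl h1)
  have hgsub : ∀ x', g x' = g x → Function.Surjective
      (mfderiv 𝓘(ℂ, Cm (q + c + d)) 𝓘(ℂ, Cm (q + c)) g x') := fun x' hx' =>
    hPg'.submersive x' (by rw [hx']; exact hzS)
  have hn2 : Module.finrank ℂ (Cm (q + c + d)) =
      Module.finrank ℂ (Cm (q + c)) + Module.finrank ℂ (Cm d) := by
    simp only [Module.finrank_fin_fun]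
  have hn3 : Module.finrank ℂ (Cm (q + c)) =
      Module.finrank ℂ (Cm q) + Module.finrank ℂ (Cm c) := by
    simp only [Module.finrank_fin_fun]
  obtain ⟨cs, hman, hval, hvimm⟩ := exists_level (E₀ := Cm d) hn2 hg.hol hgsub
  have hcomp : CompactSpace (g ⁻¹' {g x}) :=
    isCompact_iff_compactSpace.1 (isClosed_singleton.preimage hg.hol.continuous).isCompact
  have hconn : ConnectedSpace (g ⁻¹' {g x}) := isConnected_iff_connectedSpace.1 (hg.fibres (g x))
  have hfibG : H511.Surf.IsFibre (Cm (q + c + d)) (Cm d) g (g x) (Subtype.val : g ⁻¹' {g x} → X) :=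
    ⟨hcomp, hconn, hman, hval, hvimm, fun t => t.2⟩
  have hle := hG (g x) hzH (g ⁻¹' {g x}) Subtype.val hfibG Subtype.val_injective
  have hfv : ∀ s : g ⁻¹' {g x}, h (g s.1) = y := fun s => by
    have h4 : g s.1 = g x := s.2
    rw [h4, hxy]
  obtain ⟨ι, hι, hιc, hιimm⟩ := exists_iota hn hf.hol hi.hol hfsub hi.immersion hi.fibre hinj hsur
    hval hvimm hfv
  have hhsub : Function.Surjective (mfderiv 𝓘(ℂ, Cm (q + c)) 𝓘(ℂ, Cm q) h (g x)) := by
    intro u
    obtain ⟨ξ, hξ⟩ := hfsub x hxy u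
    refine ⟨mfderiv 𝓘(ℂ, Cm (q + c + d)) 𝓘(ℂ, Cm (q + c)) g x ξ, ?_⟩
    have h4 := mfderiv_comp_apply x (g := h) (f := g) ((hh.hol (g x)).mdifferentiableAt (by simp))
      ((hg.hol x).mdifferentiableAt (by simp)) ξ
    exact h4.symm.trans hξ
  obtain ⟨W, hW⟩ := exists_normal (V := Cm c) hn hn3 hg.hol hh.hol hi.hol hgsub hhsub
    hi.immersion hi.fibre
  have hgι : ∀ s, g (i (ι s)) = g x := fun s => by rw [hι]; exact s.2
  -- the good point
  let s₀ : g ⁻¹' {g x} := ⟨x, rfl⟩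
  have hs₀ : ι s₀ = ρ x := hinj ((hι s₀).trans hix.symm)
  have hres := restr (N := N) (j := N - c) (i := i) (Δ := Δ) hιc hιimm
    (fun s => (hW _ (hgι s)).1) (fun s s' => (hW _ (hgι s')).2.2.1 _ (hgι s))
    (fun s => (hW _ (hgι s)).2.2.2) hm hk hσ s₀ (by rw [hs₀]; exact b1) (by rw [hs₀]; exact b2)
    (by rw [hs₀]; exact b3) le_rfl
  have hval' : (fun s => i (ι s)) = (Subtype.val : g ⁻¹' {g x} → X) := funext hι
  rw [hval'] at hres
  have hle2 := add_le_add (hres.trans hle) (le_refl ((c : ℕ∞) : WithBot ℕ∞))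
  refine le_trans ?_ hle2
  have h5 : N ≤ N - c + c := by omega
  have h6 : ((N : ℕ∞) : WithBot ℕ∞) ≤ (((N - c + c : ℕ) : ℕ∞) : WithBot ℕ∞) := by
    exact_mod_cast h5
  refine h6.trans (le_of_eq ?_)
  push_cast
  rfl


/-- the form used in the towers -/
theorem easyI {n q c d : ℕ} (hn : n = q + c + d) {X Z Y : Type}
    [TopologicalSpace X] [ChartedSpace (Cm n) X] [TopologicalSpace Z]
    [ChartedSpace (Cm (q + c)) Z] [TopologicalSpace Y] [ChartedSpace (Cm q) Y]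
    (g : X → Z) (h : Z → Y) (Δ : Set X → ℝ) (hg : IsFibration (Cm n) (Cm (q + c)) g Δ)
    (hh : IsFibration (Cm (q + c)) (Cm q) h (fun _ => 0)) (a : WithBot ℕ∞) (H : ℕ → Set Z)
    (hH : ∀ k, IsThinSet (Cm (q + c)) (H k)) (hG : ∀ z, (∀ k, z ∉ H k) → ∀ (G : Type)
      [TopologicalSpace G] [T2Space G] [ChartedSpace (Cm d) G] (i : G → X),
      H511.Surf.IsFibre (Cm n) (Cm d) g z i → Function.Injective i →
      TZ.S.kodR (Cm n) (Cm d) i Δ ≤ a) :
    ∃ H' : ℕ → Set Y, (∀ k, IsThinSet (Cm q) (H' k)) ∧ ∀ y, (∀ k, y ∉ H' k) →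
      ∀ (F : Type) [TopologicalSpace F] [T2Space F] [ChartedSpace (Cm (c + d)) F] (i : F → X),
        H511.Surf.IsFibre (Cm n) (Cm (c + d)) (fun x => h (g x)) y i → Function.Injective i →
        TZ.S.kodR (Cm n) (Cm (c + d)) i Δ ≤ a + ((c : ℕ∞) : WithBot ℕ∞) := by
  subst hn
  exact easyI_of H303.UF.crit restrStmt q c d X Z Y g h Δ hg hh a H hH hG

end Vale.Agent.P281.H740
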